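import Vale.Agent.P048.Small.Exact

/-!
Hand-in for P048: the cycle-complete Ramsey identity holds for `3 ≤ n ≤ m` exactly away from
`m = n = 3`.
-/

namespace Vale.Agent.Results.P048.RamseyAll

/-- `R(C_m, K_n) = (m-1)(n-1)+1` for `3 ≤ n ≤ m` if and only if `(m, n) ≠ (3, 3)`. -/
theorem result : ∀ m n : ℕ, 3 ≤ n → n ≤ m →
    (IsLeast {N : ℕ | ∀ G : SimpleGraph (Fin N),
      (SimpleGraph.cycleGraph m).IsContained G ∨ ¬G.IndepSetFree n} ((m - 1) * (n - 1) + 1) ↔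
    ¬(m = 3 ∧ n = 3)) :=
  fun _ _ hn hnm => Vale.Agent.P048.Small.ramsey_iff hn hnm

end Vale.Agent.Results.P048.RamseyAll
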